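import Vale.Agent.P238.Dist
import Vale.Agent.P238.Block
import Vale.Agent.P238.Scale

/-!
# P238: the distortion of edit distance into `ℓ₁` is at least `c (log n)² / log log n`
-/

namespace Vale.Agent.Results.P238.LogSquaredLowerBound

open Vale.Agent.P238

theorem result :
    ∃ c : ℝ, 0 < c ∧ ∃ n₀ : ℕ, ∀ n, n₀ ≤ n →
      ∀ f : (Fin n → Bool) → lp (fun _ : ℕ => ℝ) 1, Function.Injective f →
        ∃ x y u v : Fin n → Bool, x ≠ y ∧ u ≠ v ∧
          c * (Real.log n) ^ 2 / Real.log (Real.log n) ≤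
            (‖f x - f y‖ / (ED (List.ofFn x) (List.ofFn y) : ℝ)) *
              ((ED (List.ofFn u) (List.ofFn v) : ℝ) / ‖f u - f v‖) :=
  distortion_of_block_scale block scale

end Vale.Agent.Results.P238.LogSquaredLowerBound
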